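import Vale.Agent.P022D.L2b.Defs
import Vale.Agent.P022E.CA.BlkDefs

namespace Vale.Agent.P022E.L2b
export Vale.Agent.P022D.L2b (
  Z1 Tn M2 CaseB NA ShellS Inp Out pd NB Lift co CaseA)
end Vale.Agent.P022E.L2b

namespace Vale.Agent.P022E.L2b.Lift
export Vale.Agent.P022D.L2b.Lift (
  det mk lc nil red)
end Vale.Agent.P022E.L2b.Lift

namespace Vale.Agent.P022E.L2b.Z1
export Vale.Agent.P022D.L2b.Z1 (
  mk mul det lc)
end Vale.Agent.P022E.L2b.Z1
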