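import Vale.Agent.P022D.L2b.B1
import Vale.Agent.P022E.L2.Ar

namespace Vale.Agent.P022E.L2b.B
export Vale.Agent.P022D.L2b.B (
  q_half rs_zero geo gen_frob rs exists_frob rs_sub Oi root_one rs_neg rs_fix nrm_alg GG Mi
  rs_of mem_Zp fou key rs_eq rs_two_mul Zp odd_cast k2 rs_one sq_inj rs_pow Om rs_nat
  nrm_of_rs sq_sum nrm mem_Oi rs_eq_zero two_mem rs_mul rs_congr fixed root_mem q_sq rs_two
  sum_perm Kp rs_add rs_sum nrm_two root_nrm)
end Vale.Agent.P022E.L2b.B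

namespace Vale.Agent.P022E.L2b.B.Oi
export Vale.Agent.P022D.L2b.B.Oi (
  map)
end Vale.Agent.P022E.L2b.B.Oi
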