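import Vale.Agent.P022D.L2b.Ps

namespace Vale.Agent.P022E.L2b
export Vale.Agent.P022D.L2b (
  exists_ev chevalley C_mem_pow max_le_JI JI_le_pow pow_le_JI isAdicCompleteV JI_mul
  mem_max_iff JI mem_JI exists_decompV decomp)
end Vale.Agent.P022E.L2b
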