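import Vale.Agent.P022D.L2b.Gen
import Vale.Agent.P022E.L2b.Defs
import Vale.Agent.P022E.L2b.Ps

namespace Vale.Agent.P022E.L2b
export Vale.Agent.P022D.L2b (
  gen pow_le_ker nil_pr co_mp ker_eq pr mp_apply mp nil_of_val lift_self gen0 Fam fam_dir
  fam_ne res lift_of)
end Vale.Agent.P022E.L2b

namespace Vale.Agent.P022E.L2b.Lift
export Vale.Agent.P022D.L2b.Lift (
  mp res)
end Vale.Agent.P022E.L2b.Lift
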