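import Vale.Agent.P022D.L2b.Hyp
import Vale.Agent.P022E.L2b.Ps
import Vale.Agent.P022E.L2.Defs
import Vale.Agent.P022E.CA.BlkDefs

namespace Vale.Agent.P022E.L2b
export Vale.Agent.P022D.L2b (
  X_mem lin der_sq sing sq_decomp lin_add prec_prod forms pol_self pol_symm cc_lin sq_mem
  lin_single u_mem blk_of sq_le pol der_sub lin_sum sub_cc_mem pdep lin_smul)
end Vale.Agent.P022E.L2b
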