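import Vale.Agent.P022D.L2b.Shell
import Vale.Agent.P022E.L2b.Gen
import Vale.Agent.P022E.L2b.Hyp

namespace Vale.Agent.P022E.L2b
export Vale.Agent.P022D.L2b (
  thr_apply thr_X T4 ana syn thr Z2 shell obs)
end Vale.Agent.P022E.L2b

namespace Vale.Agent.P022E.L2b.T4
export Vale.Agent.P022D.L2b.T4 (
  nil_iff ext' am mk ng ad c o1 io pa sb ev_a w ml b ev_q sum_z pj a z0)
end Vale.Agent.P022E.L2b.T4

namespace Vale.Agent.P022E.L2b.Z1
export Vale.Agent.P022D.L2b.Z1 (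
  zero one eq sub scal)
end Vale.Agent.P022E.L2b.Z1
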